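import Mathlib

/-!
# The degree absolute value of a polynomial ring

The polynomials in finitely many variables over a field embed into Laurent series over their
fraction field, the variables going to themselves over the series variable. Bounded norm then means
bounded degree. The spectral norm of the algebraic closure gives one normed algebraically closed
field.
-/

namespace Vale.Agent.P165.EX.Fg

open HahnSeries WithZero
open scoped LaurentSeries

variable (k : Type) [Field k] (s : ℕ)

/-- The series field. -/
abbrev DegField : Type := LaurentSeries (FractionRing (MvPolynomial (Fin s) k))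

noncomputable instance degDiscrete :
    (Valued.v : Valuation (DegField k s) ℤᵐ⁰).IsRankOneDiscrete := by
  have : (Valued.v : Valuation (DegField k s) ℤᵐ⁰).IsNontrivial := ⟨⟨single (-1 : ℤ) 1, ?_, ?_⟩⟩
  · exact Valuation.IsRankOneDiscrete.mk' _
  · rw [LaurentSeries.valuation_single_zpow]; exact exp_ne_zero
  · rw [LaurentSeries.valuation_single_zpow, ← exp_zero]
    exact fun h => by simpa using exp_injective h

noncomputable instance degRankOne : (Valued.v : Valuation (DegField k s) ℤᵐ⁰).RankOne :=
  Valuation.IsRankOneDiscrete.rankOne _ (one_lt_two : (1 : NNReal) < 2)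

noncomputable instance degNormed : NontriviallyNormedField (DegField k s) :=
  Valued.toNontriviallyNormedField (DegField k s) ℤᵐ⁰

open scoped Valued in
instance degUltra : IsUltrametricDist (DegField k s) := inferInstance

/-- The algebraically closed normed field of the place at infinity. -/
abbrev DegClosure : Type := AlgebraicClosure (DegField k s)

noncomputable instance degClosureNormed : NontriviallyNormedField (DegClosure k s) :=
  spectralNorm.nontriviallyNormedField (DegField k s) (DegClosure k s)

/-- The embedding of the polynomials. -/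
noncomputable def degEmb : MvPolynomial (Fin s) k →+* DegField k s :=
  MvPolynomial.eval₂Hom
    (HahnSeries.C.comp (algebraMap k (FractionRing (MvPolynomial (Fin s) k))))
    fun i => single (-1 : ℤ) (algebraMap (MvPolynomial (Fin s) k) _ (MvPolynomial.X i))

variable {k s}

theorem degEmb_monomial (d : Fin s →₀ ℕ) (c : k) :
    degEmb k s (MvPolynomial.monomial d c) =
      single (-(d.degree : ℤ)) (algebraMap (MvPolynomial (Fin s) k) _ (MvPolynomial.monomial d c)) := by
  rw [degEmb, MvPolynomial.eval₂Hom_monomial, Finsupp.prod_fintype _ _ (by simp)]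
  simp only [RingHom.comp_apply, HahnSeries.C_apply, single_pow]
  have key : ∀ t : Finset (Fin s), (∏ i ∈ t, single (d i • (-1 : ℤ))
      (algebraMap (MvPolynomial (Fin s) k) (FractionRing (MvPolynomial (Fin s) k))
        (MvPolynomial.X i) ^ d i)) = single (∑ i ∈ t, d i • (-1 : ℤ))
      (∏ i ∈ t, algebraMap (MvPolynomial (Fin s) k) (FractionRing (MvPolynomial (Fin s) k))
        (MvPolynomial.X i) ^ d i) := by
    intro t
    induction t using Finset.induction with
    | empty => simp
    | insert a t ha ih => rw [Finset.prod_insert ha, ih, Finset.sum_insert ha,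
        Finset.prod_insert ha, single_mul_single]
  have e : (algebraMap (MvPolynomial (Fin s) k) (FractionRing (MvPolynomial (Fin s) k))
      (MvPolynomial.monomial d c)) = algebraMap k (FractionRing (MvPolynomial (Fin s) k)) c *
      ∏ i, algebraMap (MvPolynomial (Fin s) k) (FractionRing (MvPolynomial (Fin s) k))
        (MvPolynomial.X i) ^ d i := by
    rw [MvPolynomial.monomial_eq, map_mul, Finsupp.prod_fintype _ _ (by simp), map_prod,
      ← MvPolynomial.algebraMap_eq, ← IsScalarTower.algebraMap_apply]
    simp only [map_pow]
  rw [key, single_mul_single, e]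
  congr 1
  simp [Finsupp.degree_eq_sum]

theorem degEmb_coeff (r : MvPolynomial (Fin s) k) (N : ℕ) :
    (degEmb k s r).coeff (-(N : ℤ)) = algebraMap (MvPolynomial (Fin s) k) _
      (MvPolynomial.homogeneousComponent N r) := by
  classical
  induction r using MvPolynomial.induction_on' with
  | monomial d c =>
    rw [degEmb_monomial, coeff_single]
    by_cases hd : d.degree = N
    · rw [if_pos (by rw [hd]), MvPolynomial.homogeneousComponent_of_mem
        (MvPolynomial.isHomogeneous_monomial c hd), if_pos rfl]
    · rw [if_neg (fun e => hd (by omega)), MvPolynomial.homogeneousComponent_of_mem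
        (MvPolynomial.isHomogeneous_monomial c rfl), if_neg (Ne.symm hd), map_zero]
  | add a b ha hb => rw [map_add, coeff_add, ha, hb, map_add, map_add]

theorem degEmb_injective : Function.Injective (degEmb k s) := by
  refine (injective_iff_map_eq_zero _).2 fun r hr => ?_
  rw [← MvPolynomial.sum_homogeneousComponent r]
  refine Finset.sum_eq_zero fun N _ => IsFractionRing.injective (MvPolynomial (Fin s) k)
    (FractionRing (MvPolynomial (Fin s) k)) ?_
  rw [← degEmb_coeff, hr, coeff_zero, map_zero]

open scoped Valued in
/-- Finitely many polynomials over a finite field in every ball. -/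
theorem degEmb_box [Finite k] (B : ℝ) :
    {r : MvPolynomial (Fin s) k | ‖degEmb k s r‖ ≤ B}.Finite := by
  classical
  have h1 : (1 : ℝ) < ‖(single (-1 : ℤ) (1 : FractionRing (MvPolynomial (Fin s) k)) : DegField k s)‖ := by
    rw [Valued.toNormedField.one_lt_norm_iff, LaurentSeries.valuation_single_zpow, ← exp_zero]
    exact exp_lt_exp.2 (by norm_num)
  obtain ⟨N, hN⟩ := pow_unbounded_of_one_lt B h1
  have hdeg : ∀ r : MvPolynomial (Fin s) k, ‖degEmb k s r‖ ≤ B → ∀ d ∈ r.support, d.degree ≤ N := by
    intro r hr d hd
    by_contra hlt
    have hle : ‖degEmb k s r‖ ≤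
        ‖(single (-1 : ℤ) (1 : FractionRing (MvPolynomial (Fin s) k)) : DegField k s) ^ N‖ := by
      rw [norm_pow]; exact hr.trans hN.le
    rw [Valued.toNormedField.norm_le_iff, map_pow, LaurentSeries.valuation_single_zpow,
      ← exp_nsmul] at hle
    have hz := LaurentSeries.coeff_zero_of_lt_valuation (D := -(N : ℤ)) _ (by simpa using hle)
      (show -(d.degree : ℤ) < -(N : ℤ) by omega)
    rw [degEmb_coeff] at hz
    have hc := congrArg (MvPolynomial.coeff d)
      ((IsFractionRing.injective (MvPolynomial (Fin s) k)
        (FractionRing (MvPolynomial (Fin s) k))) (hz.trans (map_zero _).symm))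
    rw [MvPolynomial.coeff_homogeneousComponent, if_pos rfl, MvPolynomial.coeff_zero] at hc
    exact (MvPolynomial.mem_support_iff.1 hd) hc
  set T : Finset (Fin s →₀ ℕ) := Finset.univ.finsupp fun _ => Finset.range (N + 1)
  have hsupp : ∀ r : MvPolynomial (Fin s) k, ‖degEmb k s r‖ ≤ B → r.support ⊆ T := fun r hr d hd =>
    Finset.mem_finsupp_iff.2 ⟨Finset.subset_univ _, fun i _ => Finset.mem_range.2
      (Nat.lt_succ_of_le ((Finsupp.le_degree i d).trans (hdeg r hr d hd)))⟩
  refine Set.Finite.of_finite_image (f := fun r (d : T) => MvPolynomial.coeff d.1 r)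
    (Set.toFinite _) fun a ha b hb e => MvPolynomial.ext _ _ fun d => ?_
  by_cases hd : d ∈ T
  · exact congrFun e ⟨d, hd⟩
  · rw [MvPolynomial.notMem_support_iff.1 fun h => hd (hsupp a ha h),
      MvPolynomial.notMem_support_iff.1 fun h => hd (hsupp b hb h)]

end Vale.Agent.P165.EX.Fg
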