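import Vale.Agent.P165.EX.Fg.Descend
import Vale.Agent.P165.EX.Fg.Laurent

/-!
# Finitely generated groups in positive characteristic

By Noether normalisation the entries are integral over a polynomial ring over the prime field, whose
degree gives one absolute value with finite balls.
-/

namespace Vale.Agent.P165.EX.Fg

open Matrix
open scoped Matrix.Norms.Elementwise MatrixGroups

/-- Finitely generated groups dense over an infinite field of positive characteristic have a
phase. -/
theorem nonuniquePhase_charP (h : PhaseAny) {K : Type} [Field K] [Infinite K] (p : ℕ)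
    [Fact p.Prime] [CharP K p] {n : ℕ} (hn : 2 ≤ n) {Γ : Type} [Group Γ] [Group.FG Γ]
    (ρ : Γ →* SL(n, K)) (hker : {g : Γ | ρ g = 1}.Finite)
    (hd : SL.ZariskiDense (Set.range fun g => (ρ g : Matrix (Fin n) (Fin n) K))) :
    SG.NonuniquePhase Γ := by
  classical
  letI : Algebra (ZMod p) K := ZMod.algebra K p
  obtain ⟨S, hS⟩ := ‹Group.FG Γ›.out
  set E : Finset K := (S ×ˢ (Finset.univ : Finset (Fin n × Fin n))).image
    fun u => (ρ u.1 : Matrix (Fin n) (Fin n) K) u.2.1 u.2.2
  set A : Subalgebra (ZMod p) K := Algebra.adjoin (ZMod p) (E : Set K)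
  have : Algebra.FiniteType (ZMod p) A := A.fg_iff_finiteType.1 ⟨E, rfl⟩
  obtain ⟨s, g, hginj, hgfin⟩ := exists_finite_inj_algHom_of_fg (ZMod p) A
  -- the polynomial ring and its fraction field inside `K`
  set R := MvPolynomial (Fin s) (ZMod p)
  set F := FractionRing R
  set φ : R →+* K := A.val.toRingHom.comp g.toRingHom
  have hφ : Function.Injective φ := Subtype.val_injective.comp hginj
  letI : Algebra R K := φ.toAlgebra
  letI : Algebra F K := (IsFractionRing.lift hφ).toAlgebra
  have : IsScalarTower R F K :=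
    IsScalarTower.of_algebraMap_eq fun x => (IsFractionRing.lift_algebraMap hφ x).symm
  have hA : ∀ a ∈ A, IsIntegral R a := fun a ha => by
    obtain ⟨q, hq, he⟩ := hgfin.to_isIntegral ⟨a, ha⟩
    refine ⟨q, hq, ?_⟩
    have := congrArg A.val.toRingHom he
    rwa [Polynomial.hom_eval₂, map_zero] at this
  set K₀ := IntermediateField.adjoin F (E : Set K)
  have : FiniteDimensional F K₀ := IntermediateField.finiteDimensional_adjoin
    fun x hx => (hA x (Algebra.subset_adjoin hx)).tower_top
  set B : Subring K := K₀.toSubfield.toSubring ⊓ (integralClosure R K).toSubring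
  have hE : ∀ x ∈ (S : Set Γ), ∀ i j, (ρ x : Matrix (Fin n) (Fin n) K) i j ∈ B := by
    intro x hx i j
    have he : (ρ x : Matrix (Fin n) (Fin n) K) i j ∈ E :=
      Finset.mem_image.2 ⟨(x, i, j), Finset.mem_product.2 ⟨hx, Finset.mem_univ _⟩, rfl⟩
    exact ⟨IntermediateField.subset_adjoin F _ he, hA _ (Algebra.subset_adjoin he)⟩
  have hB := entries_mem ρ hS B hE
  have hentry : ∀ x i j, ∃ c, algebraMap K₀ K c = (ρ x : Matrix (Fin n) (Fin n) K) i j :=
    fun x i j => ⟨⟨_, (hB x i j).1⟩, rfl⟩
  obtain ⟨ρ₀, hρ₀, hdesc⟩ := exists_descend (algebraMap K₀ K) ρ hentry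
  have : Infinite K₀ := infinite_of_descend hn (algebraMap K₀ K) ρ hentry hd
  have : IsScalarTower R K₀ K := IsScalarTower.of_algebraMap_eq fun _ => rfl
  -- the place at infinity
  letI : Algebra F (DegClosure (ZMod p) s) := (IsFractionRing.lift
    (g := (algebraMap (DegField (ZMod p) s) (DegClosure (ZMod p) s)).comp (degEmb (ZMod p) s))
    ((algebraMap (DegField (ZMod p) s) (DegClosure (ZMod p) s)).injective.comp
      degEmb_injective)).toAlgebra
  refine nonuniquePhase_of_integral h (R := R) (F := F) (P := Unit) (fun _ => DegClosure (ZMod p) s)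
    (fun C => (degEmb_box (k := ZMod p) C).subset fun r hr => ?_) hn ρ₀ ?_ (hdesc hd) fun x i j => ?_
  · have hr' := hr ()
    rw [RingHom.algebraMap_toAlgebra, IsFractionRing.lift_algebraMap, RingHom.comp_apply] at hr'
    exact (spectralNorm_extends (K := DegField (ZMod p) s) (degEmb (ZMod p) s r)).symm.trans_le hr'
  · refine hker.subset fun x (hx : ρ₀ x = 1) => Subtype.ext (Matrix.ext fun i j => ?_)
    rw [← hρ₀ x i j, hx]
    simp [Matrix.one_apply, apply_ite]
  · refine (isIntegral_algHom_iff (IsScalarTower.toAlgHom R K₀ K)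
      (algebraMap K₀ K).injective).1 ?_
    change IsIntegral R (algebraMap K₀ K ((ρ₀ x : Matrix (Fin n) (Fin n) K₀) i j))
    rw [hρ₀ x i j]
    exact (hB x i j).2

end Vale.Agent.P165.EX.Fg
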