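import Vale.Agent.P165.EX.Multi.Geo
import Vale.Agent.P165.EX.Instance
import Vale.Agent.P165.EX.Windows
import Mathlib

/-!
# From generators to places

Zariski density survives every extension of the field. The entries of a finitely generated group
lie in every subring which holds the entries of the generators. The elements integral over an
integrally closed ring are finitely many in every joint box of the embeddings, if this holds for
the ring itself.
-/

namespace Vale.Agent.P165.EX.Fg

open Matrix Polynomial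
open scoped Matrix.Norms.Elementwise MatrixGroups

/-- The statement that finitely many dense places over any normed fields with finite joint boxes
give a phase. -/
def PhaseAny : Prop :=
  ∀ (P : Type) [Fintype P] [Nonempty P] (k : P → Type) [∀ p, NontriviallyNormedField (k p)]
    (d : P → ℕ) (_ : ∀ p, 2 ≤ d p) (Γ : Type) [Group Γ] (ρ : ∀ p, Γ →* SL(d p, k p)),
    Multi.Dense ρ → Multi.BoxFinite ρ → SG.NonuniquePhase Γ

variable {K : Type} [Field K] {n : ℕ}

/-- A set dense over an infinite field is dense over every extension. -/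
theorem dense_map [Infinite K] (hn : 2 ≤ n) {L : Type} [NontriviallyNormedField L] (σ : K →+* L)
    {Γ : Type} [Group Γ] (ρ : Γ →* SL(n, K))
    (hd : SL.ZariskiDense (Set.range fun g => (ρ g : Matrix (Fin n) (Fin n) K))) :
    SL.ZariskiDense (Set.range fun g => (((SpecialLinearGroup.map σ).comp ρ) g :
      Matrix (Fin n) (Fin n) L)) := by
  intro f hf a ha
  refine ringHom_dense hn σ σ.injective f ?_ a ha
  rintro _ ⟨b, rfl⟩
  change MvPolynomial.eval (fun q => σ ((b : Matrix (Fin n) (Fin n) K) q.1 q.2)) f = 0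
  letI : Algebra K L := σ.toAlgebra
  classical
  have expand : ∀ (l : L →ₗ[K] K) (x : Fin n × Fin n → K),
      l (MvPolynomial.eval (fun q => σ (x q)) f) = MvPolynomial.eval x
        (∑ s ∈ f.support, MvPolynomial.monomial s (l (f.coeff s))) := by
    intro l x
    rw [MvPolynomial.eval_eq', map_sum, map_sum]
    refine Finset.sum_congr rfl fun s _ => ?_
    rw [MvPolynomial.eval_monomial, Finsupp.prod_fintype _ _ (by simp)]
    have e : ∏ q, σ (x q) ^ s q = σ (∏ q, x q ^ s q) := by simp
    rw [e, mul_comm, ← RingHom.algebraMap_toAlgebra σ, ← Algebra.smul_def, map_smul,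
      smul_eq_mul, mul_comm]
  refine (Module.forall_dual_apply_eq_zero_iff K _).1 fun l => ?_
  rw [expand]
  refine hd _ ?_ b b.2
  rintro _ ⟨g, rfl⟩
  have hg := hf _ ⟨g, rfl⟩
  simp only [MonoidHom.comp_apply, SpecialLinearGroup.map_apply_coe, RingHom.mapMatrix_apply,
    Matrix.map_apply] at hg
  rw [← expand, hg, map_zero]

/-- The entries of a finitely generated group lie in every subring with those of generators. -/
theorem entries_mem {Γ : Type} [Group Γ] (ρ : Γ →* SL(n, K)) {S : Set Γ}
    (hS : Subgroup.closure S = ⊤) (A : Subring K)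
    (h : ∀ g ∈ S, ∀ i j, (ρ g : Matrix (Fin n) (Fin n) K) i j ∈ A) (g : Γ) (i j : Fin n) :
    (ρ g : Matrix (Fin n) (Fin n) K) i j ∈ A := by
  have h' : ρ g ∈ (SpecialLinearGroup.map (n := Fin n) A.subtype).range := by
    have : Subgroup.closure S ≤ (SpecialLinearGroup.map (n := Fin n) A.subtype).range.comap ρ := by
      refine (Subgroup.closure_le _).2 fun x hx => ?_
      refine ⟨⟨Matrix.of fun i j => ⟨_, h x hx i j⟩, ?_⟩, ?_⟩
      · refine A.subtype_injective ?_
        rw [RingHom.map_det, map_one]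
        exact (ρ x).2
      · exact Subtype.ext rfl
    exact this (hS ▸ Subgroup.mem_top g)
  obtain ⟨b, hb⟩ := h'
  rw [← hb]
  exact ((b : Matrix (Fin n) (Fin n) A) i j).2

/-- A representation with entries in a subfield descends to it, keeping density. -/
theorem exists_descend {K₀ : Type} [Field K₀] (f : K₀ →+* K) {Γ : Type} [Group Γ]
    (ρ : Γ →* SL(n, K)) (h : ∀ g i j, ∃ x, f x = (ρ g : Matrix (Fin n) (Fin n) K) i j) :
    ∃ ρ₀ : Γ →* SL(n, K₀),
      (∀ g i j, f ((ρ₀ g : Matrix (Fin n) (Fin n) K₀) i j) = (ρ g : Matrix (Fin n) (Fin n) K) i j) ∧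
      (SL.ZariskiDense (Set.range fun g => (ρ g : Matrix (Fin n) (Fin n) K)) →
        SL.ZariskiDense (Set.range fun g => (ρ₀ g : Matrix (Fin n) (Fin n) K₀))) := by
  choose M hM using h
  have hmap : ∀ g, (Matrix.of (M g)).map f = (ρ g : Matrix (Fin n) (Fin n) K) := fun g =>
    Matrix.ext (hM g)
  have inj : Function.Injective fun A : Matrix (Fin n) (Fin n) K₀ => A.map f := fun A B e =>
    Matrix.ext fun i j => f.injective (congrFun (congrFun e i) j)
  refine ⟨{ toFun := fun g => ⟨Matrix.of (M g), f.injective (by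
              rw [RingHom.map_det, RingHom.mapMatrix_apply, hmap, map_one]
              exact (ρ g).2)⟩
            map_one' := Subtype.ext (inj ?_)
            map_mul' := fun a b => Subtype.ext (inj ?_) }, fun g i j => hM g i j, fun hd q hq a ha => ?_⟩
  · simp [hmap]
  · change (Matrix.of (M (a * b))).map f = (Matrix.of (M a) * Matrix.of (M b)).map f
    rw [Matrix.map_mul, hmap, hmap, hmap]
    exact congrArg Subtype.val (map_mul ρ a b)
  · apply f.injective
    rw [map_zero, MvPolynomial.map_eval]
    refine hd (MvPolynomial.map f q) ?_ (a.map f)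
      (by rw [← RingHom.mapMatrix_apply, ← RingHom.map_det, ha, map_one])
    rintro _ ⟨g, rfl⟩
    have h0 : MvPolynomial.eval (fun u => M g u.1 u.2) q = 0 := hq _ ⟨g, rfl⟩
    have := congrArg f h0
    rw [map_zero, MvPolynomial.map_eval] at this
    rw [show (fun u : Fin n × Fin n => (ρ g : Matrix (Fin n) (Fin n) K) u.1 u.2) =
      f ∘ fun u => M g u.1 u.2 from funext fun u => (hM g u.1 u.2).symm]
    exact this

/-- Integral elements are finitely many in every joint box of their images. -/
theorem finite_integral_box {R F K : Type} [CommRing R] [IsDomain R] [IsIntegrallyClosed R]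
    [Field F] [Algebra R F] [IsFractionRing R F] [Field K] [Algebra R K] [Algebra F K]
    [IsScalarTower R F K] [Module.Finite F K] {P : Type} [Finite P] (L : P → Type)
    [∀ v, NormedField (L v)] [∀ v, IsAlgClosed (L v)] [∀ v, Algebra F (L v)]
    (hR : ∀ B : ℝ, {r : R | ∀ v, ‖algebraMap F (L v) (algebraMap R F r)‖ ≤ B}.Finite) (B : ℝ) :
    {a : K | IsIntegral R a ∧ ∀ v (σ : K →ₐ[F] L v), ‖σ a‖ ≤ B}.Finite := by
  classical
  set d := Module.finrank F K
  set B' : ℝ := max B 1 ^ d * d.choose (d / 2)
  have := bUnion_roots_finite (algebraMap R K) d (hR B')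
  refine this.subset fun x hx => ?_
  simp only [Set.mem_iUnion]
  have : FaithfulSMul R K := (faithfulSMul_iff_algebraMap_injective R K).2 (by
    rw [IsScalarTower.algebraMap_eq R F K]
    exact (algebraMap F K).injective.comp (IsFractionRing.injective R F))
  have : Module.IsTorsionFree R K := FaithfulSMul.to_isTorsionFree R K
  have hxF : IsIntegral F x := Algebra.IsIntegral.isIntegral x
  have hmap := minpoly.isIntegrallyClosed_eq_field_fractions' F hx.1
  refine ⟨minpoly R x, ⟨?_, fun i v => ?_⟩, mem_rootSet.2 ⟨minpoly.ne_zero hx.1, minpoly.aeval R x⟩⟩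
  · rw [← (minpoly.monic hx.1).natDegree_map (algebraMap R F), ← hmap]
    exact minpoly.natDegree_le x
  · rw [← coeff_map (algebraMap R F), ← hmap, ← coeff_map (algebraMap F (L v))]
    refine coeff_bdd_of_roots_le _ (minpoly.monic hxF) (IsAlgClosed.splits _)
      (minpoly.natDegree_le x) (fun z hz => ?_) i
    rsuffices ⟨σ, rfl⟩ : ∃ σ : K →ₐ[F] L v, σ x = z
    · exact hx.2 v σ
    rw [← Set.mem_range, (Algebra.IsAlgebraic.of_finite F K).range_eval_eq_rootSet_minpoly (L v) x]
    simpa only [Polynomial.rootSet, Polynomial.aroots, Multiset.mem_toFinset, Finset.mem_coe]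
      using hz

/-- Integral entries in a finite extension and finite boxes of the base give a phase. -/
theorem nonuniquePhase_of_integral (h : PhaseAny) {R F K₀ : Type} [CommRing R] [IsDomain R]
    [IsIntegrallyClosed R] [Field F] [Algebra R F] [IsFractionRing R F] [Field K₀] [Algebra R K₀]
    [Algebra F K₀] [IsScalarTower R F K₀] [Module.Finite F K₀] [Infinite K₀]
    {P : Type} [Fintype P] [Nonempty P] (L : P → Type) [∀ v, NontriviallyNormedField (L v)]
    [∀ v, IsAlgClosed (L v)] [∀ v, Algebra F (L v)]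
    (hR : ∀ B : ℝ, {r : R | ∀ v, ‖algebraMap F (L v) (algebraMap R F r)‖ ≤ B}.Finite)
    {n : ℕ} (hn : 2 ≤ n) {Γ : Type} [Group Γ] (ρ : Γ →* SL(n, K₀))
    (hker : {g : Γ | ρ g = 1}.Finite)
    (hd : SL.ZariskiDense (Set.range fun g => (ρ g : Matrix (Fin n) (Fin n) K₀)))
    (hint : ∀ g i j, IsIntegral R ((ρ g : Matrix (Fin n) (Fin n) K₀) i j)) :
    SG.NonuniquePhase Γ := by
  classical
  let P' : Type := Σ v : P, (K₀ →ₐ[F] L v)
  have : Fintype P' := inferInstance
  have : Nonempty P' := ⟨⟨Classical.arbitrary P, IsAlgClosed.lift⟩⟩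
  refine h P' (fun v => L v.1) (fun _ => n) (fun _ => hn) Γ
    (fun v => (SpecialLinearGroup.map v.2.toRingHom).comp ρ)
    (fun v => dense_map hn v.2.toRingHom ρ hd) fun B => ?_
  have hbox := finite_integral_box (R := R) (F := F) (K := K₀) L hR B
  set T : Finset K₀ := hbox.toFinset
  have hmat : {M : Matrix (Fin n) (Fin n) K₀ | ∀ i j, M i j ∈ T}.Finite :=
    ((Fintype.piFinset fun _ : Fin n => Fintype.piFinset fun _ : Fin n => T).finite_toSet).subset
      fun M hM => by simpa [Fintype.mem_piFinset] using! hM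
  have hfib : ∀ M ∈ {M : Matrix (Fin n) (Fin n) K₀ | ∀ i j, M i j ∈ T},
      {g : Γ | (ρ g : Matrix (Fin n) (Fin n) K₀) = M}.Finite := by
    intro M _
    rcases Set.eq_empty_or_nonempty {g : Γ | (ρ g : Matrix (Fin n) (Fin n) K₀) = M} with h | ⟨a, ha⟩
    · rw [h]; exact Set.finite_empty
    refine (hker.image (a * ·)).subset fun g hg => ⟨a⁻¹ * g, ?_, by simp⟩
    have e : ρ a = ρ g := Subtype.ext (ha.trans hg.symm)
    rw [Set.mem_ofPred_eq, map_mul, map_inv, e, inv_mul_cancel]
  refine (hmat.biUnion hfib).subset fun g hg => ?_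
  simp only [Set.mem_iUnion, Set.mem_ofPred_eq]
  refine ⟨_, fun i j => hbox.mem_toFinset.2 ⟨hint g i j, fun v σ => ?_⟩, rfl⟩
  exact (norm_entry_le_entrywise_sup_norm (((SpecialLinearGroup.map σ.toRingHom).comp ρ) g :
    Matrix (Fin n) (Fin n) (L v)) (i := i) (j := j)).trans (hg ⟨v, σ⟩)

/-- A dense group over an infinite field has entries in no finite subfield. -/
theorem infinite_of_descend [Infinite K] (hn : 2 ≤ n) {K₀ : Type} [Field K₀] (f : K₀ →+* K)
    {Γ : Type} [Group Γ] (ρ : Γ →* SL(n, K))
    (h : ∀ g i j, ∃ x, f x = (ρ g : Matrix (Fin n) (Fin n) K) i j)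
    (hd : SL.ZariskiDense (Set.range fun g => (ρ g : Matrix (Fin n) (Fin n) K))) : Infinite K₀ := by
  classical
  by_contra hfin
  rw [not_infinite_iff_finite] at hfin
  have := Fintype.ofFinite K₀
  set i : Fin n := ⟨0, by omega⟩
  set j : Fin n := ⟨1, by omega⟩
  have hij : i ≠ j := by simp [i, j, Fin.ext_iff]
  obtain ⟨t, ht⟩ := (Finset.univ.image f).exists_notMem
  have h0 := hd (∏ c : K₀, (MvPolynomial.X (i, j) - MvPolynomial.C (f c))) (by
    rintro _ ⟨g, rfl⟩
    obtain ⟨c, hc⟩ := h g i j
    rw [map_prod]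
    exact Finset.prod_eq_zero (Finset.mem_univ c) (by simp [hc])) _
    (det_transvection_of_ne i j hij t)
  rw [map_prod] at h0
  obtain ⟨c, -, hc⟩ := Finset.prod_eq_zero_iff.1 h0
  refine ht (Finset.mem_image.2 ⟨c, Finset.mem_univ c, ?_⟩)
  simp [transvection, hij] at hc
  exact (sub_eq_zero.1 hc).symm

end Vale.Agent.P165.EX.Fg
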