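import Vale.Agent.P165.EX.Fg.Main
import Vale.Agent.P165.EX.Join.Kernel

/-!
# Finitely generated dense groups with arbitrary kernels, from a phase for finite image boxes
-/

namespace Vale.Agent.P165.EX.Fg

open Matrix Polynomial
open scoped Matrix.Norms.Elementwise MatrixGroups

/-- Dense places with finite boxes of the joint image give a phase. -/
def PhaseImage : Prop :=
  ∀ (P : Type) [Fintype P] [Nonempty P] (k : P → Type) [∀ p, NontriviallyNormedField (k p)]
    (d : P → ℕ) (_ : ∀ p, 2 ≤ d p) (Γ : Type) [Group Γ] (ρ : ∀ p, Γ →* SL(d p, k p)),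
    Multi.Dense ρ → ImageBoxes ρ → SG.NonuniquePhase Γ

theorem phaseImage_of_kernel (h : PhaseKernel) : PhaseImage :=
  fun P _ _ k _ d hd Γ _ ρ hdense hbox => h P k d Γ ρ hbox (Or.inl fun v =>
    ⟨hd v, Or.inl fun f hf a ha => hdense v f (by rintro _ ⟨g, rfl⟩; exact hf g) a ha⟩)

/-- Integral entries in a finite extension and finite boxes of the base give a phase. -/
theorem nonuniquePhase_of_integral_image (h : PhaseImage) {R F K₀ : Type} [CommRing R] [IsDomain R]
    [IsIntegrallyClosed R] [Field F] [Algebra R F] [IsFractionRing R F] [Field K₀] [Algebra R K₀]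
    [Algebra F K₀] [IsScalarTower R F K₀] [Module.Finite F K₀] [Infinite K₀]
    {P : Type} [Fintype P] [Nonempty P] (L : P → Type) [∀ v, NontriviallyNormedField (L v)]
    [∀ v, IsAlgClosed (L v)] [∀ v, Algebra F (L v)]
    (hR : ∀ B : ℝ, {r : R | ∀ v, ‖algebraMap F (L v) (algebraMap R F r)‖ ≤ B}.Finite)
    {n : ℕ} (hn : 2 ≤ n) {Γ : Type} [Group Γ] (ρ : Γ →* SL(n, K₀))
        (hd : SL.ZariskiDense (Set.range fun g => (ρ g : Matrix (Fin n) (Fin n) K₀)))
    (hint : ∀ g i j, IsIntegral R ((ρ g : Matrix (Fin n) (Fin n) K₀) i j)) :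
    SG.NonuniquePhase Γ := by
  classical
  let P' : Type := Σ v : P, (K₀ →ₐ[F] L v)
  have : Fintype P' := inferInstance
  have : Nonempty P' := ⟨⟨Classical.arbitrary P, IsAlgClosed.lift⟩⟩
  refine h P' (fun v => L v.1) (fun _ => n) (fun _ => hn) Γ
    (fun v => (SpecialLinearGroup.map v.2.toRingHom).comp ρ)
    (fun v => dense_map hn v.2.toRingHom ρ hd) fun B => ?_
  have hbox := finite_integral_box (R := R) (F := F) (K := K₀) L hR B
  set T : Finset K₀ := hbox.toFinset
  have hmat : {M : Matrix (Fin n) (Fin n) K₀ | ∀ i j, M i j ∈ T}.Finite :=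
    ((Fintype.piFinset fun _ : Fin n => Fintype.piFinset fun _ : Fin n => T).finite_toSet).subset
      fun M hM => by simpa [Fintype.mem_piFinset] using! hM
  refine ((hmat.image fun M (v : P') => M.map v.2.toRingHom).preimage
    (f := fun (x : ∀ v : P', SL(n, L v.1)) v => (x v : Matrix (Fin n) (Fin n) (L v.1)))
    fun x _ y _ e => _root_.funext fun v => Subtype.ext (congrFun e v)).subset ?_
  rintro _ ⟨g, hg, rfl⟩
  exact ⟨_, fun i j => hbox.mem_toFinset.2 ⟨hint g i j, fun v σ => hg ⟨v, σ⟩ i j⟩, rfl⟩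

theorem nonuniquePhase_algebraic_image (h : PhaseImage) {K : Type} [Field K] [CharZero K]
    [Algebra.IsAlgebraic ℚ K] {n : ℕ} (hn : 2 ≤ n) {Γ : Type} [Group Γ] [Group.FG Γ]
    (ρ : Γ →* SL(n, K))     (hd : SL.ZariskiDense (Set.range fun g => (ρ g : Matrix (Fin n) (Fin n) K))) :
    SG.NonuniquePhase Γ := by
  classical
  obtain ⟨m, hm0, K₀, hK₀, hA⟩ := exists_integral ρ
  obtain ⟨ρ₀, hρ₀, hdesc⟩ := exists_descend (K₀ := K₀) (algebraMap K₀ K) ρ
    fun g i j => ⟨⟨_, (hA g i j).1⟩, rfl⟩
  have hd₀ := hdesc hd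
  have : Infinite K₀ := Infinite.of_injective (fun z : ℤ => (z : K₀)) Int.cast_injective
  refine nonuniquePhase_of_integral_image h (R := Multi.invRing m) (F := ℚ) (RatPlace m) (invRing_box m) hn ρ₀
    hd₀ fun g i j => ?_
  · refine (isIntegral_algHom_iff (IsScalarTower.toAlgHom (Multi.invRing m) K₀ K)
      (algebraMap K₀ K).injective).1 ?_
    change IsIntegral (Multi.invRing m) (algebraMap K₀ K ((ρ₀ g : Matrix (Fin n) (Fin n) K₀) i j))
    rw [hρ₀ g i j]
    exact (hA g i j).2

/-- Finitely generated groups dense over an infinite field of positive characteristic have a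
phase. -/
theorem nonuniquePhase_charP_image (h : PhaseImage) {K : Type} [Field K] [Infinite K] (p : ℕ)
    [Fact p.Prime] [CharP K p] {n : ℕ} (hn : 2 ≤ n) {Γ : Type} [Group Γ] [Group.FG Γ]
    (ρ : Γ →* SL(n, K))     (hd : SL.ZariskiDense (Set.range fun g => (ρ g : Matrix (Fin n) (Fin n) K))) :
    SG.NonuniquePhase Γ := by
  classical
  letI : Algebra (ZMod p) K := ZMod.algebra K p
  obtain ⟨S, hS⟩ := ‹Group.FG Γ›.out
  set E : Finset K := (S ×ˢ (Finset.univ : Finset (Fin n × Fin n))).image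
    fun u => (ρ u.1 : Matrix (Fin n) (Fin n) K) u.2.1 u.2.2
  set A : Subalgebra (ZMod p) K := Algebra.adjoin (ZMod p) (E : Set K)
  have : Algebra.FiniteType (ZMod p) A := A.fg_iff_finiteType.1 ⟨E, rfl⟩
  obtain ⟨s, g, hginj, hgfin⟩ := exists_finite_inj_algHom_of_fg (ZMod p) A
  -- the polynomial ring and its fraction field inside `K`
  set R := MvPolynomial (Fin s) (ZMod p)
  set F := FractionRing R
  set φ : R →+* K := A.val.toRingHom.comp g.toRingHom
  have hφ : Function.Injective φ := Subtype.val_injective.comp hginj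
  letI : Algebra R K := φ.toAlgebra
  letI : Algebra F K := (IsFractionRing.lift hφ).toAlgebra
  have : IsScalarTower R F K :=
    IsScalarTower.of_algebraMap_eq fun x => (IsFractionRing.lift_algebraMap hφ x).symm
  have hA : ∀ a ∈ A, IsIntegral R a := fun a ha => by
    obtain ⟨q, hq, he⟩ := hgfin.to_isIntegral ⟨a, ha⟩
    refine ⟨q, hq, ?_⟩
    have := congrArg A.val.toRingHom he
    rwa [Polynomial.hom_eval₂, map_zero] at this
  set K₀ := IntermediateField.adjoin F (E : Set K)
  have : FiniteDimensional F K₀ := IntermediateField.finiteDimensional_adjoin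
    fun x hx => (hA x (Algebra.subset_adjoin hx)).tower_top
  set B : Subring K := K₀.toSubfield.toSubring ⊓ (integralClosure R K).toSubring
  have hE : ∀ x ∈ (S : Set Γ), ∀ i j, (ρ x : Matrix (Fin n) (Fin n) K) i j ∈ B := by
    intro x hx i j
    have he : (ρ x : Matrix (Fin n) (Fin n) K) i j ∈ E :=
      Finset.mem_image.2 ⟨(x, i, j), Finset.mem_product.2 ⟨hx, Finset.mem_univ _⟩, rfl⟩
    exact ⟨IntermediateField.subset_adjoin F _ he, hA _ (Algebra.subset_adjoin he)⟩
  have hB := entries_mem ρ hS B hE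
  have hentry : ∀ x i j, ∃ c, algebraMap K₀ K c = (ρ x : Matrix (Fin n) (Fin n) K) i j :=
    fun x i j => ⟨⟨_, (hB x i j).1⟩, rfl⟩
  obtain ⟨ρ₀, hρ₀, hdesc⟩ := exists_descend (algebraMap K₀ K) ρ hentry
  have : Infinite K₀ := infinite_of_descend hn (algebraMap K₀ K) ρ hentry hd
  have : IsScalarTower R K₀ K := IsScalarTower.of_algebraMap_eq fun _ => rfl
  -- the place at infinity
  letI : Algebra F (DegClosure (ZMod p) s) := (IsFractionRing.lift
    (g := (algebraMap (DegField (ZMod p) s) (DegClosure (ZMod p) s)).comp (degEmb (ZMod p) s))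
    ((algebraMap (DegField (ZMod p) s) (DegClosure (ZMod p) s)).injective.comp
      degEmb_injective)).toAlgebra
  refine nonuniquePhase_of_integral_image h (R := R) (F := F) (P := Unit) (fun _ => DegClosure (ZMod p) s)
    (fun C => (degEmb_box (k := ZMod p) C).subset fun r hr => ?_) hn ρ₀ (hdesc hd) fun x i j => ?_
  · have hr' := hr ()
    rw [RingHom.algebraMap_toAlgebra, IsFractionRing.lift_algebraMap, RingHom.comp_apply] at hr'
    exact (spectralNorm_extends (K := DegField (ZMod p) s) (degEmb (ZMod p) s r)).symm.trans_le hr'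
  · refine (isIntegral_algHom_iff (IsScalarTower.toAlgHom R K₀ K)
      (algebraMap K₀ K).injective).1 ?_
    change IsIntegral R (algebraMap K₀ K ((ρ₀ x : Matrix (Fin n) (Fin n) K₀) i j))
    rw [hρ₀ x i j]
    exact (hB x i j).2

/-- Every finitely generated group with a dense homomorphism over an infinite field of positive
characteristic or of algebraic numbers has a phase, whatever its kernel. -/
theorem phaseQT_fg_image (h : PhaseImage) {K : Type} [Field K] [Infinite K]
    (hK : ringChar K ≠ 0 ∨ ∀ x : K, IsAlgebraic ℤ x) {n : ℕ} (hn : 2 ≤ n) {Γ : Type} [Group Γ]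
    [Group.FG Γ] (ρ : Γ →* SL(n, K))
    (hd : ∀ f : MvPolynomial (Fin n × Fin n) K,
      (∀ g, MvPolynomial.eval (fun e => (ρ g : Matrix (Fin n) (Fin n) K) e.1 e.2) f = 0) →
        ∀ a : SL(n, K),
          MvPolynomial.eval (fun e => (a : Matrix (Fin n) (Fin n) K) e.1 e.2) f = 0) :
    PhaseQT Γ := by
  have hd' : SL.ZariskiDense (Set.range fun g => (ρ g : Matrix (Fin n) (Fin n) K)) :=
    fun f hf a ha => hd f (fun g => hf _ ⟨g, rfl⟩) ⟨a, ha⟩
  refine phaseQT_of_nonuniquePhase ?_
  rcases eq_or_ne (ringChar K) 0 with h0 | hp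
  · have : CharP K 0 := h0 ▸ ringChar.charP K
    have : CharZero K := CharP.charP_to_charZero K
    have halg := hK.resolve_left fun h => h h0
    have : Algebra.IsAlgebraic ℚ K :=
      ⟨fun x => (IsFractionRing.isAlgebraic_iff ℤ ℚ K).1 (halg x)⟩
    exact nonuniquePhase_algebraic_image h hn ρ hd'
  · have : Fact (ringChar K).Prime :=
      ⟨(CharP.char_is_prime_or_zero K (ringChar K)).resolve_right hp⟩
    exact nonuniquePhase_charP_image h (ringChar K) hn ρ hd'

end Vale.Agent.P165.EX.Fg
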