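import Vale.Agent.P165.EX.Fg.Semisimple
import Vale.Agent.P165.EX.Join.Kernel

/-!
# Finitely generated groups with semisimple image and arbitrary kernel, from a phase for parts
-/

namespace Vale.Agent.P165.EX.Fg

open Finset Matrix
open scoped Matrix.Norms.Elementwise MatrixGroups

/-- Generic parts at proper places and finite boxes of the joint image give a phase. -/
def PhasePartsImage : Prop :=
  ∀ (P : Type) [Fintype P] [Nonempty P] (k : P → Type) [∀ p, NontriviallyNormedField (k p)]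
    [∀ p, ProperSpace (k p)] (d : P → ℕ) (_ : ∀ p, 0 < d p) (Γ : Type) [Group Γ]
    (ρ : ∀ p, Γ →* SL(d p, k p)) (S : ∀ p, Semi.Parts (ρ p)), (∀ p, (S p).Generic) →
    ImageBoxes ρ → SG.NonuniquePhase Γ

/-- A finitely generated group with semisimple image over algebraic numbers, any kernel. -/
theorem nonuniquePhase_semisimple_image (h : PhasePartsImage) {K : Type} [Field K] [CharZero K]
    [Algebra.IsAlgebraic ℚ K] {n : ℕ} (hn : 2 ≤ n) {Γ : Type} [Group Γ] [Group.FG Γ]
    (ρ : Γ →* SL(n, K)) (hs : Semi.Spanning ρ)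
    (hp : Semi.PrimeClosure ρ) (_hcr : ∀ j ≤ n, Semi.Reducible (Semi.cmpRep (Semi.matRep ρ) j)) : SG.NonuniquePhase Γ := by
  classical
  obtain ⟨m, hm0, K₀, hK₀, hA⟩ := exists_integral ρ
  obtain ⟨ρ₀, hρ₀, -⟩ := exists_descend (K₀ := K₀) (algebraMap K₀ K) ρ
    fun g i j => ⟨⟨_, (hA g i j).1⟩, rfl⟩
  let P : Type := Σ v : Option {q : ℕ // q ∈ m.primeFactors}, (K₀ →ₐ[ℚ] RatPlace m v)
  have : Fintype P := inferInstance
  have : Nonempty P := ⟨⟨none, IsAlgClosed.lift⟩⟩
  choose k hk hkp φ hφ using fun v : P => exists_proper m v.1 v.2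
  have hparts : ∀ v, ∃ T : Semi.Parts ((SpecialLinearGroup.map (φ v)).comp ρ₀), T.Generic :=
    fun v => Semi.parts_of_map (algebraMap K₀ K) (φ v) ρ₀ ρ _
      (fun g => Matrix.ext fun i j => (hρ₀ g i j).symm) (fun _ => rfl) hs hp
  choose T hT using hparts
  refine h P k (fun _ => n) (fun _ => Nat.zero_lt_two.trans_le hn) Γ
    (fun v => (SpecialLinearGroup.map (φ v)).comp ρ₀) T hT fun R => ?_
  have hbox := finite_integral_box (R := Multi.invRing m) (F := ℚ) (K := K₀) (RatPlace m) (invRing_box m) R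
  set D : Finset K₀ := hbox.toFinset
  have hmat : {M : Matrix (Fin n) (Fin n) K₀ | ∀ i j, M i j ∈ D}.Finite :=
    ((Fintype.piFinset fun _ : Fin n => Fintype.piFinset fun _ : Fin n => D).finite_toSet).subset
      fun M hM => by simpa [Fintype.mem_piFinset] using! hM
  refine ((hmat.image fun M (v : P) => M.map (φ v)).preimage
    (f := fun (x : ∀ v : P, SL(n, k v)) v => (x v : Matrix (Fin n) (Fin n) (k v)))
    fun x _ y _ e => funext fun v => Subtype.ext (congrFun e v)).subset ?_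
  rintro _ ⟨g, hg, rfl⟩
  refine ⟨_, fun i j => hbox.mem_toFinset.2 ⟨?_, fun v σ => ?_⟩, rfl⟩
  · refine (isIntegral_algHom_iff (IsScalarTower.toAlgHom (Multi.invRing m) K₀ K)
      (algebraMap K₀ K).injective).1 ?_
    change IsIntegral (Multi.invRing m) (algebraMap K₀ K ((ρ₀ g : Matrix (Fin n) (Fin n) K₀) i j))
    rw [hρ₀ g i j]
    exact (hA g i j).2
  · rw [← hφ ⟨v, σ⟩]
    exact hg ⟨v, σ⟩ i j

end Vale.Agent.P165.EX.Fg
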