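import Vale.Agent.P165.EX.Fg.Rational
import Vale.Agent.P165.EX.Fg.CharP
import Vale.Agent.P165.EX.Any.Dense
import Vale.Agent.P165.EX.Any.Phase
import Vale.Agent.P165.Pad.Main

/-!
# Every finitely generated dense group of matrices over algebraic numbers or in positive characteristic
-/

namespace Vale.Agent.P165.EX.Fg

open Matrix
open scoped Matrix.Norms.Elementwise MatrixGroups

/-- Finitely many dense places over any normed fields with finite joint boxes give a phase. -/
theorem phaseAny : PhaseAny := by
  intro P _ _ k _ d hd Γ _ ρ hdense hfin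
  obtain ⟨a⟩ := ‹Nonempty P›
  have := infinite_of_dense (hd a) (ρ a) (hdense a)
  exact Any.nonuniquePhase_of_places ρ (fun v => Nat.zero_lt_two.trans_le (hd v))
    (fun v => Or.inl (Any.transExt_of_dense (ρ v) (hd v) fun f hf x =>
      hdense v f (by rintro _ ⟨g, rfl⟩; exact hf g) x)) hfin

/-- Finitely generated groups with a finite-kernel Zariski dense representation over an infinite
field of positive characteristic or of algebraic numbers. -/
theorem phaseQT_fg {K : Type} [Field K] [Infinite K]
    (hK : ringChar K ≠ 0 ∨ ∀ x : K, IsAlgebraic ℤ x) {n : ℕ} (hn : 2 ≤ n) {Γ : Type} [Group Γ]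
    [Group.FG Γ] (ρ : Γ →* SL(n, K)) (hker : {g : Γ | ρ g = 1}.Finite)
    (hd : ∀ f : MvPolynomial (Fin n × Fin n) K,
      (∀ g, MvPolynomial.eval (fun e => (ρ g : Matrix (Fin n) (Fin n) K) e.1 e.2) f = 0) →
        ∀ a : SL(n, K),
          MvPolynomial.eval (fun e => (a : Matrix (Fin n) (Fin n) K) e.1 e.2) f = 0) :
    PhaseQT Γ := by
  have hd' : SL.ZariskiDense (Set.range fun g => (ρ g : Matrix (Fin n) (Fin n) K)) :=
    fun f hf a ha => hd f (fun g => hf _ ⟨g, rfl⟩) ⟨a, ha⟩
  refine phaseQT_of_nonuniquePhase ?_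
  rcases eq_or_ne (ringChar K) 0 with h0 | hp
  · have : CharP K 0 := h0 ▸ ringChar.charP K
    have : CharZero K := CharP.charP_to_charZero K
    have halg := hK.resolve_left fun h => h h0
    have : Algebra.IsAlgebraic ℚ K :=
      ⟨fun x => (IsFractionRing.isAlgebraic_iff ℤ ℚ K).1 (halg x)⟩
    exact nonuniquePhase_algebraic phaseAny hn ρ hker hd'
  · have : Fact (ringChar K).Prime :=
      ⟨(CharP.char_is_prime_or_zero K (ringChar K)).resolve_right hp⟩
    exact nonuniquePhase_charP phaseAny (ringChar K) hn ρ hker hd'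

end Vale.Agent.P165.EX.Fg
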