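import Vale.Agent.P165.EX.Fg.Descend
import Vale.Agent.P165.EX.Multi.Instance

/-!
# Finitely generated groups over algebraic numbers

The entries of a finitely generated group are integral over the rationals with finitely many primes
inverted, so the complex absolute value and those of these primes give finite joint boxes.
-/

namespace Vale.Agent.P165.EX.Fg

open Matrix Multi
open scoped Matrix.Norms.Elementwise MatrixGroups

instance invRing_away (m : ℕ) [NeZero m] : IsLocalization.Away (m : ℤ) (invRing m) := by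
  have hm : (m : ℚ) ≠ 0 := Nat.cast_ne_zero.2 (NeZero.ne m)
  refine IsLocalization.Away.mk _ ?_ (fun s => ?_) fun a b h => ?_
  · refine IsUnit.of_mul_eq_one ⟨((1 : ℚ) / m), 1, ?_⟩ ?_
    · rw [one_div, Rat.inv_natCast_den, pow_one, if_neg (NeZero.ne m)]
    · exact Subtype.ext (by simp [hm])
  · obtain ⟨r, j, hj⟩ := s
    obtain ⟨c, hc⟩ := hj
    refine ⟨j, r.num * c, Subtype.ext ?_⟩
    simp only [map_natCast, map_pow, map_mul, MulMemClass.coe_mul, SubmonoidClass.coe_pow,
      eq_intCast, map_intCast, SubringClass.coe_intCast, SubringClass.coe_natCast, Int.cast_mul,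
      Int.cast_natCast]
    rw [← Nat.cast_pow, hc, Nat.cast_mul, ← mul_assoc, Rat.mul_den_eq_num]
  · exact ⟨0, by simpa using Int.cast_injective (α := ℚ) (congrArg Subtype.val h)⟩

instance invRing_closed (m : ℕ) [NeZero m] : IsIntegrallyClosed (invRing m) :=
  isIntegrallyClosed_of_isLocalization (R := ℤ) (invRing m) (Submonoid.powers (m : ℤ))
    (powers_le_nonZeroDivisors_of_noZeroDivisors (Nat.cast_ne_zero.2 (NeZero.ne m)))

instance invRing_fraction (m : ℕ) [NeZero m] : IsFractionRing (invRing m) ℚ :=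
  IsFractionRing.isFractionRing_of_isDomain_of_isLocalization (Submonoid.powers (m : ℤ)) (invRing m)
    ℚ

/-- The places of the rationals with the primes of `m` inverted. -/
abbrev RatPlace (m : ℕ) : Option {q : ℕ // q ∈ m.primeFactors} → Type
  | none => ℂ
  | some q => letI : Fact q.1.Prime := ⟨Nat.prime_of_mem_primeFactors q.2⟩
    PadicAlgCl q.1

noncomputable instance (m : ℕ) : ∀ v, NontriviallyNormedField (RatPlace m v)
  | none => inferInstanceAs (NontriviallyNormedField ℂ)
  | some q => letI : Fact q.1.Prime := ⟨Nat.prime_of_mem_primeFactors q.2⟩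
    spectralNorm.nontriviallyNormedField ℚ_[q.1] (PadicAlgCl q.1)

instance (m : ℕ) : ∀ v, IsAlgClosed (RatPlace m v)
  | none => inferInstanceAs (IsAlgClosed ℂ)
  | some q => letI : Fact q.1.Prime := ⟨Nat.prime_of_mem_primeFactors q.2⟩
    inferInstanceAs (IsAlgClosed (PadicAlgCl q.1))

instance (m : ℕ) : ∀ v, CharZero (RatPlace m v)
  | none => inferInstanceAs (CharZero ℂ)
  | some q => letI : Fact q.1.Prime := ⟨Nat.prime_of_mem_primeFactors q.2⟩
    inferInstanceAs (CharZero (PadicAlgCl q.1))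

/-- Finitely many elements of the ring in every box of all the places. -/
theorem invRing_box (m : ℕ) [NeZero m] (C : ℝ) :
    {r : invRing m | ∀ v, ‖algebraMap ℚ (RatPlace m v) (algebraMap (invRing m) ℚ r)‖ ≤ C}.Finite := by
  classical
  set B : ℕ := ⌈max C 1⌉₊ with hB
  set D : ℕ := B ^ m.primeFactors.card with hD
  refine (Set.Finite.preimage Subtype.val_injective.injOn
    (((Set.finite_Icc (-((B * D : ℕ) : ℤ)) (B * D : ℕ)).prod (Set.finite_Icc 0 D)).image
      fun e : ℤ × ℕ => (e.1 : ℚ) / e.2)).subset fun r hr => ?_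
  obtain ⟨r, j, hj⟩ := r
  have hCB : C ≤ B := (le_max_left C 1).trans (Nat.le_ceil _)
  have h1 : ‖((r : ℚ) : ℂ)‖ ≤ C := by simpa using! hr none
  have hB1 : 1 ≤ B := Nat.one_le_iff_ne_zero.2 (Nat.ceil_pos.2 (lt_max_of_lt_right one_pos)).ne'
  have hsub : r.den.primeFactors ⊆ m.primeFactors := by
    intro q hq
    rw [Nat.mem_primeFactors] at hq ⊢
    exact ⟨hq.1, hq.1.dvd_of_dvd_pow (hq.2.1.trans hj), NeZero.ne m⟩
  have hpow : ∀ q ∈ r.den.primeFactors, q ^ r.den.factorization q ≤ B := by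
    intro q hq
    have hqm := hsub hq
    letI : Fact q.Prime := ⟨Nat.prime_of_mem_primeFactors hq⟩
    have h2 : ‖((r : ℚ) : PadicAlgCl q)‖ ≤ C := by simpa using! hr (some ⟨q, hqm⟩)
    rw [← map_ratCast (algebraMap ℚ_[q] (PadicAlgCl q)), PadicAlgCl.norm_extends] at h2
    have hdq : q ∣ r.den := Nat.dvd_of_mem_primeFactors hq
    have hnum : ‖(r.num : ℚ_[q])‖ = 1 := by
      refine le_antisymm (Padic.norm_int_le_one _) (not_lt.1 fun hlt => ?_)
      rw [Padic.norm_intCast_lt_one_iff] at hlt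
      have hdvd : q ∣ r.num.natAbs.gcd r.den := Nat.dvd_gcd (Int.natCast_dvd.1 hlt) hdq
      rw [r.reduced] at hdvd
      exact (Fact.out : q.Prime).ne_one (Nat.dvd_one.1 hdvd)
    have hn : ‖(r : ℚ_[q])‖ = ((q ^ r.den.factorization q : ℕ) : ℝ) := by
      rw [Rat.cast_def, norm_div, hnum,
        Padic.norm_eq_zpow_neg_valuation (Nat.cast_ne_zero.2 r.den_nz), Padic.valuation_natCast,
        Nat.factorization_def _ Fact.out, one_div, _root_.zpow_neg, inv_inv, zpow_natCast, Nat.cast_pow]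
    exact_mod_cast (hn ▸ h2).trans hCB
  have hden : r.den ≤ D := by
    conv_lhs => rw [← Nat.prod_factorization_pow_eq_self r.den_nz]
    rw [Nat.prod_factorization_eq_prod_primeFactors]
    exact (Finset.prod_le_pow_card _ _ _ hpow).trans
      (Nat.pow_le_pow_right hB1 (Finset.card_le_card hsub))
  have hnum : |r.num| ≤ ((B * D : ℕ) : ℤ) := by
    have e : (r.num : ℝ) = (r : ℝ) * r.den := by
      rw [Rat.cast_def, div_mul_cancel₀ _ (Nat.cast_ne_zero.2 r.den_nz)]
    rw [show ((r : ℚ) : ℂ) = ((r : ℝ) : ℂ) by norm_cast, Complex.norm_real, Real.norm_eq_abs] at h1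
    have h3 : |(r.num : ℝ)| ≤ (B : ℝ) * D := by
      rw [e, abs_mul, Nat.abs_cast]
      exact mul_le_mul (h1.trans hCB) (Nat.cast_le.2 hden) (Nat.cast_nonneg _) (Nat.cast_nonneg _)
    exact_mod_cast h3
  exact ⟨(r.num, r.den), ⟨abs_le.1 hnum, ⟨Nat.zero_le _, hden⟩⟩, r.num_div_den⟩

/-- A finitely generated group of matrices of algebraic numbers lives in a number field and is
integral away from finitely many primes. -/
theorem exists_integral {K : Type} [Field K] [CharZero K] [Algebra.IsAlgebraic ℚ K] {n : ℕ}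
    {Γ : Type} [Group Γ] [Group.FG Γ] (ρ : Γ →* SL(n, K)) :
    ∃ (m : ℕ) (_ : NeZero m) (K₀ : IntermediateField ℚ K), FiniteDimensional ℚ K₀ ∧
      ∀ g i j, (ρ g : Matrix (Fin n) (Fin n) K) i j ∈ K₀ ∧
        IsIntegral (invRing m) ((ρ g : Matrix (Fin n) (Fin n) K) i j) := by
  classical
  obtain ⟨S, hS⟩ := ‹Group.FG Γ›.out
  set E : Finset K := (S ×ˢ (Finset.univ : Finset (Fin n × Fin n))).image
    fun u => (ρ u.1 : Matrix (Fin n) (Fin n) K) u.2.1 u.2.2
  choose c hc0 hc using fun e : K => ((IsFractionRing.isAlgebraic_iff ℤ ℚ K).2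
    (Algebra.IsAlgebraic.isAlgebraic e)).exists_integral_multiple
  set m : ℕ := ∏ e ∈ E, (c e).natAbs with hm
  have : NeZero m := ⟨Finset.prod_ne_zero_iff.2 fun e _ => Int.natAbs_ne_zero.2 (hc0 e)⟩
  set K₀ := IntermediateField.adjoin ℚ (E : Set K)
  have : FiniteDimensional ℚ K₀ := IntermediateField.finiteDimensional_adjoin
    fun x _ => Algebra.IsIntegral.isIntegral x
  set A : Subring K := K₀.toSubfield.toSubring ⊓ (integralClosure (invRing m) K).toSubring
  have hE : ∀ g ∈ (S : Set Γ), ∀ i j, (ρ g : Matrix (Fin n) (Fin n) K) i j ∈ A := by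
    intro g hg i j
    set e := (ρ g : Matrix (Fin n) (Fin n) K) i j
    have he : e ∈ E :=
      Finset.mem_image.2 ⟨(g, i, j), Finset.mem_product.2 ⟨hg, Finset.mem_univ _⟩, rfl⟩
    refine ⟨IntermediateField.subset_adjoin ℚ _ he, ?_⟩
    have hmem : ((c e : ℚ))⁻¹ ∈ invRing m := ⟨1, by
      rw [Rat.inv_intCast_den, if_neg (hc0 e), pow_one]
      exact Finset.dvd_prod_of_mem (fun e => (c e).natAbs) he⟩
    have hint : IsIntegral (invRing m) (c e • e) := (hc e).tower_top
    have hprod := (isIntegral_algebraMap (R := invRing m) (A := K) (x := ⟨_, hmem⟩)).mul hint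
    change IsIntegral (invRing m) e
    rw [show algebraMap (invRing m) K ⟨_, hmem⟩ = algebraMap ℚ K ((c e : ℚ))⁻¹ from rfl,
      zsmul_eq_mul, map_inv₀, map_intCast, ← mul_assoc,
      inv_mul_cancel₀ (Int.cast_ne_zero.2 (hc0 e)), one_mul] at hprod
    exact hprod
  have hA := entries_mem ρ hS A hE
  exact ⟨m, inferInstance, K₀, inferInstance, fun g i j => hA g i j⟩

/-- Finitely generated groups dense over a field of algebraic numbers have a phase. -/
theorem nonuniquePhase_algebraic (h : PhaseAny) {K : Type} [Field K] [CharZero K]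
    [Algebra.IsAlgebraic ℚ K] {n : ℕ} (hn : 2 ≤ n) {Γ : Type} [Group Γ] [Group.FG Γ]
    (ρ : Γ →* SL(n, K)) (hker : {g : Γ | ρ g = 1}.Finite)
    (hd : SL.ZariskiDense (Set.range fun g => (ρ g : Matrix (Fin n) (Fin n) K))) :
    SG.NonuniquePhase Γ := by
  classical
  obtain ⟨m, hm0, K₀, hK₀, hA⟩ := exists_integral ρ
  obtain ⟨ρ₀, hρ₀, hdesc⟩ := exists_descend (K₀ := K₀) (algebraMap K₀ K) ρ
    fun g i j => ⟨⟨_, (hA g i j).1⟩, rfl⟩
  have hd₀ := hdesc hd
  have : Infinite K₀ := Infinite.of_injective (fun z : ℤ => (z : K₀)) Int.cast_injective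
  refine nonuniquePhase_of_integral h (R := invRing m) (F := ℚ) (RatPlace m) (invRing_box m) hn ρ₀
    ?_ hd₀ fun g i j => ?_
  · refine hker.subset fun g (hg : ρ₀ g = 1) => Subtype.ext (Matrix.ext fun i j => ?_)
    rw [← hρ₀ g i j, hg]
    simp [Matrix.one_apply, apply_ite]
  · refine (isIntegral_algHom_iff (IsScalarTower.toAlgHom (invRing m) K₀ K)
      (algebraMap K₀ K).injective).1 ?_
    change IsIntegral (invRing m) (algebraMap K₀ K ((ρ₀ g : Matrix (Fin n) (Fin n) K₀) i j))
    rw [hρ₀ g i j]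
    exact (hA g i j).2

end Vale.Agent.P165.EX.Fg
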