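import Vale.Agent.P165.EX.Fg.Semisimple
import Vale.Agent.P165.EX.Semi.Flat
import Vale.Agent.P165.Pad.Main

/-!
# Finitely generated groups with semisimple image over fields of algebraic numbers
-/

namespace Vale.Agent.P165.EX.Fg

open Matrix Finset
open scoped MatrixGroups

/-- Finitely many proper places with generic parts and finite joint boxes give a phase. -/
theorem phaseParts : PhaseParts := by
  intro P _ _ k _ _ d hd Γ _ _ ρ S hgen hfin
  exact Semi.nonuniquePhase_of_parts hd ρ S hgen hfin

/-- Full span and a prime closure in degree at least two force an infinite group. -/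
theorem infinite_of_spanning {K : Type} [Field K] {n : ℕ} (hn : 2 ≤ n) {Γ : Type} [Group Γ]
    (ρ : Γ →* SL(n, K)) (hs : Semi.Spanning ρ) (hp : Semi.PrimeClosure ρ) : Infinite Γ := by
  classical
  refine not_finite_iff_infinite.1 fun hfinite => ?_
  have := Fintype.ofFinite Γ
  have hconst : ∀ (g : Γ) a b, (ρ g : Matrix (Fin n) (Fin n) K) a b =
      (ρ 1 : Matrix (Fin n) (Fin n) K) a b := by
    intro g a b
    suffices h : ∀ s : Finset K, (∀ g, (ρ g : Matrix (Fin n) (Fin n) K) a b ∈ s) →
        ∃ c, ∀ g, (ρ g : Matrix (Fin n) (Fin n) K) a b = c by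
      obtain ⟨c, hc⟩ := h (univ.image fun g => (ρ g : Matrix (Fin n) (Fin n) K) a b)
        fun g => mem_image_of_mem _ (mem_univ g)
      rw [hc g, hc 1]
    intro s
    induction s using Finset.induction_on with
    | empty => exact fun h => absurd (h 1) (notMem_empty _)
    | insert c s hcs ih =>
      intro hs
      rcases hp (MvPolynomial.X (a, b) - MvPolynomial.C c)
          (∏ x ∈ s, (MvPolynomial.X (a, b) - MvPolynomial.C x)) (fun g => by
        rcases mem_insert.1 (hs g) with h | h
        · left; simp [h]
        · right; rw [map_prod]; exact prod_eq_zero h (by simp)) with h | h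
      · exact ⟨c, fun g => by simpa [sub_eq_zero] using h g⟩
      · refine ih fun g => ?_
        have h1 := h g
        rw [map_prod, prod_eq_zero_iff] at h1
        obtain ⟨x, hx, h2⟩ := h1
        simp only [map_sub, MvPolynomial.eval_X, MvPolynomial.eval_C, sub_eq_zero] at h2
        rwa [h2]
  set a : Fin n := ⟨0, by omega⟩
  set b : Fin n := ⟨1, by omega⟩
  have hab : a ≠ b := fun h => by simpa [a, b] using congrArg Fin.val h
  have hle : Submodule.span K (Set.range fun g => (ρ g : Matrix (Fin n) (Fin n) K)) ≤
      Submodule.span K {(1 : Matrix (Fin n) (Fin n) K)} := by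
    refine Submodule.span_le.2 ?_
    rintro _ ⟨g, rfl⟩
    rw [show (fun g => (ρ g : Matrix (Fin n) (Fin n) K)) g = 1 by
      change (ρ g : Matrix (Fin n) (Fin n) K) = 1
      rw [show (ρ g : Matrix (Fin n) (Fin n) K) = (ρ 1 : Matrix (Fin n) (Fin n) K) from
        Matrix.ext (hconst g), map_one, Matrix.SpecialLinearGroup.coe_one]]
    exact Submodule.mem_span_singleton_self _
  obtain ⟨c, hc⟩ := Submodule.mem_span_singleton.1
    (hle (hs ▸ Submodule.mem_top : Matrix.single a b (1 : K) ∈ _))
  have := congrFun (congrFun hc a) b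
  simp [hab] at this

/-- A finitely generated group with a finite-kernel representation over a field of algebraic
numbers in characteristic zero, whose image spans all matrices, has completely reducible exterior
powers and a prime closure, has a phase. -/
theorem phaseQT_fg_semisimple {K : Type} [Field K] [CharZero K]
    (halg : ∀ x : K, IsAlgebraic ℤ x) {n : ℕ} (hn : 2 ≤ n) {Γ : Type} [Group Γ]
    [Group.FG Γ] (ρ : Γ →* SL(n, K)) (hker : {g : Γ | ρ g = 1}.Finite) (hs : Semi.Spanning ρ)
    (hp : Semi.PrimeClosure ρ) (hcr : ∀ j ≤ n, Semi.Reducible (Semi.cmpRep (Semi.matRep ρ) j)) :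
    PhaseQT Γ := by
  have : Algebra.IsAlgebraic ℚ K :=
    ⟨fun x => (IsFractionRing.isAlgebraic_iff ℤ ℚ K).1 (halg x)⟩
  have := infinite_of_spanning hn ρ hs hp
  exact phaseQT_of_nonuniquePhase (nonuniquePhase_semisimple phaseParts hn ρ hker hs hp hcr)

end Vale.Agent.P165.EX.Fg
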