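import Vale.Agent.P165.EX.Fg.Rational
import Vale.Agent.P165.EX.Semi.Transfer

/-!
# Finitely generated semisimple groups over algebraic numbers

The rational places are refined to proper fields: the complex numbers and finite extensions of the
`q`-adic numbers holding the images of one basis of the number field of the entries.
-/

namespace Vale.Agent.P165.EX.Fg

open Matrix Multi
open scoped Matrix.Norms.Elementwise MatrixGroups

/-- The statement that finitely many proper places with generic parts and finite joint boxes give a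
phase. -/
def PhaseParts : Prop :=
  ∀ (P : Type) [Fintype P] [Nonempty P] (k : P → Type) [∀ p, NontriviallyNormedField (k p)]
    [∀ p, ProperSpace (k p)] (d : P → ℕ) (_ : ∀ p, 0 < d p) (Γ : Type) [Group Γ] [Infinite Γ]
    (ρ : ∀ p, Γ →* SL(d p, k p)) (S : ∀ p, Semi.Parts (ρ p)), (∀ p, (S p).Generic) →
    Multi.BoxFinite ρ → SG.NonuniquePhase Γ

/-- The finite extension of the `q`-adic numbers generated by finitely many numbers. -/
noncomputable abbrev padicHull (q : ℕ) [Fact q.Prime] (s : Finset (PadicAlgCl q)) :=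
  IntermediateField.adjoin ℚ_[q] (s : Set (PadicAlgCl q))

noncomputable instance padicHull_normed (q : ℕ) [Fact q.Prime] (s : Finset (PadicAlgCl q)) :
    NontriviallyNormedField (padicHull q s) :=
  { (inferInstance : NormedField (padicHull q s)) with
    non_trivial := by
      obtain ⟨x, hx⟩ := NontriviallyNormedField.non_trivial (α := ℚ_[q])
      exact ⟨algebraMap ℚ_[q] _ x, by simpa using hx⟩ }

instance padicHull_proper (q : ℕ) [Fact q.Prime] (s : Finset (PadicAlgCl q)) :
    ProperSpace (padicHull q s) := by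
  have : FiniteDimensional ℚ_[q] (padicHull q s) :=
    IntermediateField.finiteDimensional_adjoin fun x _ => Algebra.IsIntegral.isIntegral x
  exact FiniteDimensional.proper ℚ_[q] _

/-- An embedding of a number field at a rational place factors through a proper field. -/
theorem exists_proper (m : ℕ) {K₀ : Type} [Field K₀] [Algebra ℚ K₀] [Module.Finite ℚ K₀]
    (v : Option {q : ℕ // q ∈ m.primeFactors}) (σ : K₀ →ₐ[ℚ] RatPlace m v) :
    ∃ (k : Type) (_ : NontriviallyNormedField k) (_ : ProperSpace k) (φ : K₀ →+* k),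
      ∀ x, ‖φ x‖ = ‖σ x‖ := by
  classical
  match v with
  | none => exact ⟨ℂ, inferInstance, (inferInstance : ProperSpace ℂ), σ.toRingHom, fun _ => rfl⟩
  | some q =>
    letI : Fact q.1.Prime := ⟨Nat.prime_of_mem_primeFactors q.2⟩
    set b := Module.finBasis ℚ K₀
    set s : Finset (PadicAlgCl q.1) := Finset.univ.image fun i => (σ (b i) : PadicAlgCl q.1)
    have hmem : ∀ x, (σ x : PadicAlgCl q.1) ∈ padicHull q.1 s := fun x => by
      rw [← b.sum_repr x, map_sum]
      refine sum_mem fun i _ => ?_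
      rw [Algebra.smul_def, map_mul, AlgHom.commutes, eq_ratCast]
      refine mul_mem ?_ (IntermediateField.subset_adjoin _ _
        (Finset.mem_image.2 ⟨i, Finset.mem_univ i, rfl⟩))
      exact SubfieldClass.ratCast_mem (padicHull q.1 s) _
    exact ⟨padicHull q.1 s, inferInstance, inferInstance, σ.toRingHom.codRestrict _ hmem, fun _ => rfl⟩

/-- Finitely generated groups with absolutely irreducible semisimple image of connected closure
over a field of algebraic numbers have a phase. -/
theorem nonuniquePhase_semisimple (h : PhaseParts) {K : Type} [Field K] [CharZero K]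
    [Algebra.IsAlgebraic ℚ K] {n : ℕ} (hn : 2 ≤ n) {Γ : Type} [Group Γ] [Group.FG Γ]
    (ρ : Γ →* SL(n, K)) (hker : {g : Γ | ρ g = 1}.Finite) (hs : Semi.Spanning ρ)
    (hp : Semi.PrimeClosure ρ) (_hcr : ∀ j ≤ n, Semi.Reducible (Semi.cmpRep (Semi.matRep ρ) j))
    [Infinite Γ] : SG.NonuniquePhase Γ := by
  classical
  obtain ⟨m, hm0, K₀, hK₀, hA⟩ := exists_integral ρ
  obtain ⟨ρ₀, hρ₀, -⟩ := exists_descend (K₀ := K₀) (algebraMap K₀ K) ρ
    fun g i j => ⟨⟨_, (hA g i j).1⟩, rfl⟩
  let P : Type := Σ v : Option {q : ℕ // q ∈ m.primeFactors}, (K₀ →ₐ[ℚ] RatPlace m v)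
  have : Fintype P := inferInstance
  have : Nonempty P := ⟨⟨none, IsAlgClosed.lift⟩⟩
  choose k hk hkp φ hφ using fun v : P => exists_proper m v.1 v.2
  have hparts : ∀ v, ∃ T : Semi.Parts ((SpecialLinearGroup.map (φ v)).comp ρ₀), T.Generic :=
    fun v => Semi.parts_of_map (algebraMap K₀ K) (φ v) ρ₀ ρ _
      (fun g => Matrix.ext fun i j => (hρ₀ g i j).symm) (fun _ => rfl) hs hp
  choose T hT using hparts
  refine h P k (fun _ => n) (fun _ => Nat.zero_lt_two.trans_le hn) Γ
    (fun v => (SpecialLinearGroup.map (φ v)).comp ρ₀) T hT fun R => ?_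
  have hbox := finite_integral_box (R := invRing m) (F := ℚ) (K := K₀) (RatPlace m) (invRing_box m) R
  set D : Finset K₀ := hbox.toFinset
  have hmat : {M : Matrix (Fin n) (Fin n) K₀ | ∀ i j, M i j ∈ D}.Finite :=
    ((Fintype.piFinset fun _ : Fin n => Fintype.piFinset fun _ : Fin n => D).finite_toSet).subset
      fun M hM => by simpa [Fintype.mem_piFinset] using! hM
  have hfib : ∀ M ∈ {M : Matrix (Fin n) (Fin n) K₀ | ∀ i j, M i j ∈ D},
      {g : Γ | (ρ₀ g : Matrix (Fin n) (Fin n) K₀) = M}.Finite := by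
    intro M _
    rcases Set.eq_empty_or_nonempty {g : Γ | (ρ₀ g : Matrix (Fin n) (Fin n) K₀) = M} with h | ⟨a, ha⟩
    · rw [h]; exact Set.finite_empty
    refine (hker.image (a * ·)).subset fun g hg => ⟨a⁻¹ * g, ?_, by simp⟩
    have e : ρ a = ρ g := Subtype.ext (Matrix.ext fun i j => by
      rw [← hρ₀ a i j, ← hρ₀ g i j]
      exact congrArg _ (congrFun (congrFun (ha.trans hg.symm) i) j))
    rw [Set.mem_ofPred_eq, map_mul, map_inv, e, inv_mul_cancel]
  refine (hmat.biUnion hfib).subset fun g hg => ?_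
  simp only [Set.mem_iUnion, Set.mem_ofPred_eq]
  refine ⟨_, fun i j => hbox.mem_toFinset.2 ⟨?_, fun v σ => ?_⟩, rfl⟩
  · refine (isIntegral_algHom_iff (IsScalarTower.toAlgHom (invRing m) K₀ K)
      (algebraMap K₀ K).injective).1 ?_
    change IsIntegral (invRing m) (algebraMap K₀ K ((ρ₀ g : Matrix (Fin n) (Fin n) K₀) i j))
    rw [hρ₀ g i j]
    exact (hA g i j).2
  · rw [← hφ ⟨v, σ⟩]
    exact (norm_entry_le_entrywise_sup_norm (((SpecialLinearGroup.map (φ ⟨v, σ⟩)).comp ρ₀) g :
      Matrix (Fin n) (Fin n) (k ⟨v, σ⟩)) (i := i) (j := j)).trans (hg ⟨v, σ⟩)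

end Vale.Agent.P165.EX.Fg
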